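import Vale.Agent.P260Z.Ob.Reg.Sheet
import Vale.Agent.P260Z.Ob.Reg.Cl.A

/-!
# P260, obstruction: the incidence sum of the sheet items at a three-cell
-/

noncomputable section
set_option linter.unusedSectionVars false
variable [Vale.Agent.P215Z.K.Geom]
namespace Vale.Agent.P215Z.K
open MvPolynomial Classical

namespace R2b
variable {O : Type} [CommRing O] [Algebra ℚ O]

/-- matrices with entries in an extended ideal -/
def IG (c : Ideal O) : AddSubgroup (MM O) where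
  carrier := {z | InI c z}
  add_mem' := InC.add
  zero_mem' := InC.zero
  neg_mem' := InC.neg

def pr (c : Ideal O) : MM O →+ MM O ⧸ IG c := QuotientAddGroup.mk' (IG c)

theorem pr_eq {c : Ideal O} {z w : MM O} : pr c z = pr c w ↔ InI c (z - w) :=
  QuotientAddGroup.eq_iff_sub_mem

theorem pr_zero {c : Ideal O} {z : MM O} : pr c z = 0 ↔ InI c z :=
  QuotientAddGroup.eq_zero_iff z

theorem gadj_iff {r r' : Gp} : GAdj r r' ↔ (r'.1 = r.1 + 1 ∧ r'.2 = r.2) ∨
    (r'.1 = r.1 - 1 ∧ r'.2 = r.2) ∨ (r'.1 = r.1 ∧ r'.2 = r.2 + 1) ∨ (r'.1 = r.1 ∧ r'.2 = r.2 - 1) := by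
  simp only [GAdj, Prod.ext_iff, Prod.fst_add, Prod.snd_add, Prod.fst_sub, Prod.snd_sub, add_zero,
    sub_zero]

theorem Ad_one (z : MM O) : Ad (1 : (MM O)ˣ) z = z := by
  simp only [Ad, inv_one, Units.val_one, one_mul, mul_one]

variable (s : Setup) (x : ∀ l : Lg, Option (s.L.C l.1) → M2 O) (A : F1 O) (c : Ideal O)
  (P : s.cv.S) (θ : Pt)

def tt (r : Gp) : MM O ⧸ IG c :=
  if s.FF P r = θ ∧ s.cv.PV P r then pr c (s.eta x A P r) else 0

def hg (v : Gp) : ℤ := ∑ j, s.D.F (s.cv.labS P) v j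

def TH (i j : ℤ) : MM O ⧸ IG c :=
  (hg s P (i + 1, j) - hg s P (i, j)) • tt s x A c P θ (2 * i + 1, 2 * j)

def TV (i j : ℤ) : MM O ⧸ IG c :=
  (hg s P (i, j + 1) - hg s P (i, j)) • tt s x A c P θ (2 * i, 2 * j + 1)

theorem tt_bd {r : Gp} (hr : r.1 = 0 ∨ r.1 = 2 * s.D.M ∨ r.2 = 0 ∨ r.2 = 2 * s.D.M) :
    tt s x A c P θ r = 0 := by
  rw [tt]
  split_ifs with h
  · obtain rfl := pv_bd s h.2 hr
    have e : s.src x s.cv.root = 0 := by rw [Setup.src, s.cv.par_root]; rfl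
    have e' : cst (0 : M2 O) = 0 := Matrix.map_zero _ C_0
    rw [Setup.eta, e, e', Ad, mul_zero, zero_mul, map_zero]
  · rfl

theorem tt_out {i j : ℤ} (hQ : InSq s.D.M (i, j)) (h : ¬ s.cv.PV P (ctr (i, j))) {r : Gp}
    (h1 : 2 * i ≤ r.1) (h2 : r.1 ≤ 2 * i + 2) (h3 : 2 * j ≤ r.2) (h4 : r.2 ≤ 2 * j + 2) :
    tt s x A c P θ r = 0 := by
  refine if_neg fun h' => h ?_
  obtain ⟨u, v, hu, hv, e, -⟩ := pv_sq s hQ h1 h2 h3 h4 h'.2
  refine ⟨_, inSq_face s hQ hu hv, e, ?_⟩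
  simp only [Corner, ctr]; omega

theorem sum_T : ∑ Q ∈ sqs s.D.M, (TH s x A c P θ Q.1 (Q.2 + 1) - TH s x A c P θ Q.1 Q.2 -
    (TV s x A c P θ (Q.1 + 1) Q.2 - TV s x A c P θ Q.1 Q.2)) = 0 := by
  rw [Finset.sum_sub_distrib, sqs, Finset.sum_product, Finset.sum_product_right,
    Finset.sum_eq_zero, Finset.sum_eq_zero, sub_zero]
  · intro j _
    rw [tele (fun i => TV s x A c P θ i j), TV, TV, tt_bd, tt_bd, smul_zero, smul_zero, sub_zero]
    · exact Or.inl (mul_zero _)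
    · exact Or.inr (Or.inl rfl)
  · intro i _
    rw [tele (fun j => TH s x A c P θ i j), TH, TH, tt_bd, tt_bd, smul_zero, smul_zero, sub_zero]
    · exact Or.inr (Or.inr (Or.inl (mul_zero _)))
    · exact Or.inr (Or.inr (Or.inr rfl))

section pv
variable {i j : ℤ} (hQ : InSq s.D.M (i, j))
include hQ

theorem pv_iff {r : Gp} (h1 : 2 * i ≤ r.1) (h2 : r.1 ≤ 2 * i + 2) (h3 : 2 * j ≤ r.2)
    (h4 : r.2 ≤ 2 * j + 2) : s.cv.PV P r ↔ ∃ u v : ℤ, (u = 0 ∨ u = 1) ∧ (v = 0 ∨ v = 1) ∧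
      s.cv.sh (2 * i + u, 2 * j + v) = P ∧ Corner (2 * i + u, 2 * j + v) r :=
  ⟨pv_sq s hQ h1 h2 h3 h4, fun ⟨_, _, hu, hv, e, h⟩ => ⟨_, inSq_face s hQ hu hv, e, h⟩⟩

theorem pv_H {v : ℤ} (hv : v = 0 ∨ v = 1) : s.cv.PV P (2 * i + 1, 2 * (j + v)) ↔
    s.cv.sh (2 * i + 0, 2 * j + v) = P ∨ s.cv.sh (2 * i + 1, 2 * j + v) = P := by
  rw [pv_iff s P hQ (by dsimp only; omega) (by dsimp only; omega) (by dsimp only; omega)
    (by dsimp only; omega)]
  constructor
  · rintro ⟨u, v', hu, hv', e, -, h⟩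
    obtain rfl : v' = v := by dsimp only at h; omega
    rcases hu with rfl | rfl
    · exact Or.inl e
    · exact Or.inr e
  · rintro (e | e)
    · exact ⟨0, v, Or.inl rfl, hv, e, by unfold Corner; dsimp only; omega⟩
    · exact ⟨1, v, Or.inr rfl, hv, e, by unfold Corner; dsimp only; omega⟩

theorem pv_V {u : ℤ} (hu : u = 0 ∨ u = 1) : s.cv.PV P (2 * (i + u), 2 * j + 1) ↔
    s.cv.sh (2 * i + u, 2 * j + 0) = P ∨ s.cv.sh (2 * i + u, 2 * j + 1) = P := by
  rw [pv_iff s P hQ (by dsimp only; omega) (by dsimp only; omega) (by dsimp only; omega)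
    (by dsimp only; omega)]
  constructor
  · rintro ⟨u', v, hu', hv, e, h, -⟩
    obtain rfl : u' = u := by dsimp only at h; omega
    rcases hv with rfl | rfl
    · exact Or.inl e
    · exact Or.inr e
  · rintro (e | e)
    · exact ⟨u, 0, hu, Or.inl rfl, e, by unfold Corner; dsimp only; omega⟩
    · exact ⟨u, 1, hu, Or.inr rfl, e, by unfold Corner; dsimp only; omega⟩

theorem same_H {v : ℤ} (hv : v = 0 ∨ v = 1)
    (h : s.D.F (s.cv.labS P) (i + 1, j + v) = s.D.F (s.cv.labS P) (i, j + v)) :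
    s.cv.sh (2 * i + 0, 2 * j + v) = P ↔ s.cv.sh (2 * i + 1, 2 * j + v) = P :=
  ⟨sh_same s hQ (Or.inl rfl) hv (Or.inr rfl) hv (Or.inr rfl) (by rw [add_zero, h]),
    sh_same s hQ (Or.inr rfl) hv (Or.inl rfl) hv (Or.inr rfl) (by rw [add_zero, h])⟩

theorem same_V {u : ℤ} (hu : u = 0 ∨ u = 1)
    (h : s.D.F (s.cv.labS P) (i + u, j + 1) = s.D.F (s.cv.labS P) (i + u, j)) :
    s.cv.sh (2 * i + u, 2 * j + 0) = P ↔ s.cv.sh (2 * i + u, 2 * j + 1) = P :=
  ⟨sh_same s hQ hu (Or.inl rfl) hu (Or.inr rfl) (Or.inl rfl) (by rw [add_zero, h]),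
    sh_same s hQ hu (Or.inr rfl) hu (Or.inl rfl) (Or.inl rfl) (by rw [add_zero, h])⟩

end pv

variable {x A} (m : Marked O Mk)
  (hx : ∀ l c, s.L.cown l c = true → InC (m.ii (s.L.cmark l c)) (x l c))
  {B : F1 O} (hp : s.Pair m.a A B) {b : Ideal O} (hs : In2 (KR s.D.N) b (curv A - s.JR x A))
  {i j : ℤ} (hQ : InSq s.D.M (i, j))
include hx hp hs hQ

theorem tt_mid {r : Gp} (h : GAdj r (2 * i + 1, 2 * j + 1))
    (e : s.FF P r = s.FF P (2 * i + 1, 2 * j + 1)) :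
    tt s x A (s.MR x A ⊔ m.a * b) P θ r =
      if s.FF P (2 * i + 1, 2 * j + 1) = θ ∧ s.cv.PV P r then
        pr _ (s.eta x A P (2 * i + 1, 2 * j + 1)) else 0 := by
  rw [tt, e]
  split_ifs with h'
  · have h0 := gadj_iff.1 h
    dsimp only at h0
    obtain ⟨u, v, hu, hv, e', hc⟩ :=
      pv_sq s hQ (by omega) (by omega) (by omega) (by omega) h'.2
    have h1 := pe_of_corner s (inSq_face s hQ hu hv) hc (by simp only [Corner]; omega) h
    rw [e'] at h1
    have h2 := s.eta_step m hx hp hs h1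
    rw [Setup.UU, e, step_self, Ad_one] at h2
    exact (pr_eq.2 h2).symm
  · rfl

theorem tt_pair {r r' : Gp} (h : GAdj r (2 * i + 1, 2 * j + 1))
    (h' : GAdj r' (2 * i + 1, 2 * j + 1)) (e : s.FF P r = s.FF P (2 * i + 1, 2 * j + 1))
    (e' : s.FF P r' = s.FF P (2 * i + 1, 2 * j + 1)) (hv : s.cv.PV P r ↔ s.cv.PV P r') :
    tt s x A (s.MR x A ⊔ m.a * b) P θ r = tt s x A (s.MR x A ⊔ m.a * b) P θ r' := by
  rw [tt_mid s P θ m hx hp hs hQ h e, tt_mid s P θ m hx hp hs hQ h' e', hv]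

theorem sq_deg (h : ¬ s.Nondeg P (i, j)) :
    TH s x A (s.MR x A ⊔ m.a * b) P θ i (j + 1) - TH s x A (s.MR x A ⊔ m.a * b) P θ i j -
      (TV s x A (s.MR x A ⊔ m.a * b) P θ (i + 1) j -
        TV s x A (s.MR x A ⊔ m.a * b) P θ i j) = 0 := by
  have gB : GAdj (2 * i + 1, 2 * j) (2 * i + 1, 2 * j + 1) := by
    rw [gadj_iff]; dsimp only; omega
  have gT : GAdj (2 * i + 1, 2 * (j + 1)) (2 * i + 1, 2 * j + 1) := by
    rw [gadj_iff]; dsimp only; omega
  have gL : GAdj (2 * i, 2 * j + 1) (2 * i + 1, 2 * j + 1) := by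
    rw [gadj_iff]; dsimp only; omega
  have gR : GAdj (2 * (i + 1), 2 * j + 1) (2 * i + 1, 2 * j + 1) := by
    rw [gadj_iff]; dsimp only; omega
  have pB := pv_H s P hQ (Or.inl rfl)
  have pT := pv_H s P hQ (Or.inr rfl)
  have pL := pv_V s P hQ (Or.inl rfl)
  have pR := pv_V s P hQ (Or.inr rfl)
  have sB := same_H s P hQ (Or.inl rfl)
  have sT := same_H s P hQ (Or.inr rfl)
  have sL := same_V s P hQ (Or.inl rfl)
  have sR := same_V s P hQ (Or.inr rfl)
  have key := fun {r r' : Gp} => tt_pair s P θ m hx hp hs hQ (r := r) (r' := r')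
  have sh := s.D.shape (s.cv.labS P) (i, j) hQ
  simp only [Setup.Nondeg, Prod.mk_add_mk, add_zero] at h sh pB pT pL pR sB sT sL sR
  simp only [Setup.FF, ref_oo] at key
  simp only [TH, TV, hg]
  generalize s.D.F (s.cv.labS P) = F at *
  have caseA : F (i + 1, j) = F (i, j) → F (i + 1, j + 1) = F (i, j + 1) → _ := fun h1 h2 =>
    key gR gL (by rw [ref_eo, h1, h2]; split_ifs <;> rfl)
      (by rw [ref_eo, h1, h2]; split_ifs <;> rfl) (by rw [pR, pL, sB h1, sT h2])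
  have caseB : F (i, j + 1) = F (i, j) → F (i + 1, j + 1) = F (i + 1, j) → _ := fun h1 h2 =>
    key gT gB (by rw [ref_oe, h1, h2]; split_ifs; exacts [by rw [add_comm (F (i, j))], rfl])
      (by rw [ref_oe, h1, h2]; split_ifs; exacts [by rw [add_comm (F (i, j))], rfl])
      (by rw [pT, pB, sL h1, sR h2])
  rcases sh with ⟨a, a', -, -, hd, h1, h2, h3⟩ | ⟨h1, h2, -⟩ | ⟨h1, h2, -⟩ | ⟨h1, h2, -⟩ | ⟨h1, h2, -⟩
  · by_cases ha : a = 0
    · rw [ha, add_zero] at h1 h3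
      rw [← h2] at h3
      rw [caseA h1 h3, h1, h3]; simp
    by_cases ha' : a' = 0
    · rw [ha', add_zero] at h2 h3
      rw [← h1] at h3
      rw [caseB h2 h3, h2, h3]; simp
    refine absurd ⟨?_, ?_, ?_, fun k => ?_⟩ h
    · rw [h1]; simpa using ha
    · rw [h2]; simpa using ha'
    · rw [h1, h2, h3]; abel
    · rw [h1, h2]; simpa using hd k
  · by_cases h0 : F (i, j) = F (i + 1, j + 1)
    · rw [caseA (by rw [h1, h2, h0]) h2.symm, h1, h2, h0]; simp
    · rw [key gB gL (by rw [ref_oe, if_neg h0, h1, h2]) (by rw [ref_eo, if_neg h0, h2])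
        (by rw [pB, pL, sR (h1.trans h2).symm, ← sT h2.symm]), h1, h2]
      simp
  · rw [key gB gR (by rw [ref_oe, if_pos (h1.trans h2), h1, add_comm (F (i, j + 1))])
      (by rw [ref_eo, if_pos (h1.trans h2), h2]) (by rw [pB, pR, sL h1.symm, sT h2.symm, or_comm]),
      h1, h2]
    simp only [sub_smul]; abel
  · rw [key gT gL (by rw [ref_oe, if_pos (h1.trans h2), h2, add_comm (F (i, j + 1))])
      (by rw [ref_eo, if_pos (h1.trans h2), h1]) (by rw [pT, pL, sB h1.symm, sR h2.symm, or_comm]),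
      h1, h2]
    simp only [sub_smul]; abel
  · by_cases h0 : F (i, j) = F (i + 1, j + 1)
    · rw [caseA h1.symm (by rw [← h0, h1, h2]), ← h0, ← h2, ← h1]; simp
    · rw [key gT gR (by rw [ref_oe, if_neg h0, h1, h2]) (by rw [ref_eo, if_neg h0, h1])
        (by rw [pT, pR, ← sL (h1.trans h2).symm, sB h1.symm]), h1, h2]
      simp

omit hx hp hs in
theorem steps (g : F3) : IsStep (s.D.F g (i + 1, j) - s.D.F g (i, j)) ∧
    IsStep (s.D.F g (i, j + 1) - s.D.F g (i, j)) := by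
  have sh := s.D.shape g (i, j) hQ
  simp only [Prod.mk_add_mk, add_zero] at sh
  have z : ∀ p : Pt, IsStep (p - p) := fun p => Or.inl (sub_self p)
  rcases sh with ⟨a, a', ha, ha', -, h1, h2, -⟩ | ⟨h1, -, h3⟩ | ⟨h1, -, h3⟩ | ⟨h1, -, h3⟩ |
    ⟨h1, h2, -⟩
  · rw [h1, h2, add_sub_cancel_left, add_sub_cancel_left]; exact ⟨ha, ha'⟩
  · rw [← h1, ← neg_sub]; exact ⟨IsStep.neg h3, IsStep.neg h3⟩
  · exact ⟨h3, by rw [← h1]; exact z _⟩
  · exact ⟨by rw [← h1]; exact z _, h3⟩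
  · rw [← h2, ← h1]; exact ⟨z _, z _⟩

omit hx hp hs hQ in
theorem inc_smul {G : Type} [AddCommGroup G] (it : Item O) (hkl : it.k ≠ it.l) {α β : ℤ}
    (hα : α = 1 ∨ α = -1) (hβ : β = 1 ∨ β = -1) (ho : it.o = α * β) (X : G) :
    it.inc θ • X = α • (if θ = it.σ + β • ee it.l then X else 0) -
      α • (if θ = it.σ - β • ee it.l then X else 0) -
      (β • (if θ = it.σ + α • ee it.k then X else 0) -
        β • (if θ = it.σ - α • ee it.k then X else 0)) := by
  have k1 : θ = it.σ + ee it.k → θ it.k = it.σ it.k + 1 := fun h => by simp [h, ee]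
  have k2 : θ = it.σ - ee it.k → θ it.k = it.σ it.k - 1 := fun h => by simp [h, ee]
  have k3 : θ = it.σ + ee it.l → θ it.k = it.σ it.k ∧ θ it.l = it.σ it.l + 1 := fun h => by
    simp [h, ee, hkl]
  have k4 : θ = it.σ - ee it.l → θ it.k = it.σ it.k ∧ θ it.l = it.σ it.l - 1 := fun h => by
    simp [h, ee, hkl]
  have n12 : θ = it.σ + ee it.k → θ ≠ it.σ - ee it.k := fun h h' => by
    have := k1 h; have := k2 h'; omega
  have n13 : θ = it.σ + ee it.k → θ ≠ it.σ + ee it.l := fun h h' => by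
    have := k1 h; have := k3 h'; omega
  have n14 : θ = it.σ + ee it.k → θ ≠ it.σ - ee it.l := fun h h' => by
    have := k1 h; have := k4 h'; omega
  have n23 : θ = it.σ - ee it.k → θ ≠ it.σ + ee it.l := fun h h' => by
    have := k2 h; have := k3 h'; omega
  have n24 : θ = it.σ - ee it.k → θ ≠ it.σ - ee it.l := fun h h' => by
    have := k2 h; have := k4 h'; omega
  have n34 : θ = it.σ + ee it.l → θ ≠ it.σ - ee it.l := fun h h' => by
    have := k3 h; have := k4 h'; omega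
  rcases hα with rfl | rfl <;> rcases hβ with rfl | rfl <;>
    simp only [Item.inc, ho, one_smul, neg_smul, ← sub_eq_add_neg, sub_neg_eq_add]
  all_goals
    by_cases h1 : θ = it.σ + ee it.k
    · simp only [if_pos h1, if_neg (n12 h1), if_neg (n13 h1), if_neg (n14 h1)]; simp
    by_cases h2 : θ = it.σ - ee it.k
    · simp only [if_neg h1, if_pos h2, if_neg (n23 h2), if_neg (n24 h2)]; simp
    by_cases h3 : θ = it.σ + ee it.l
    · simp only [if_neg h1, if_neg h2, if_pos h3, if_neg (n34 h3)]; simp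
    by_cases h4 : θ = it.σ - ee it.l
    · simp only [if_neg h1, if_neg h2, if_neg h3, if_pos h4]; simp
    · simp only [if_neg h1, if_neg h2, if_neg h3, if_neg h4]; simp

theorem sq_nondeg (hθ : θ ∈ KR s.D.N) (hm : (i, j) ∈ sqs s.D.M) (h : s.Nondeg P (i, j))
    (hv : s.cv.PV P (ctr (i, j))) :
    pr (s.MR x A ⊔ m.a * b) ((s.itR x A (P, ⟨(i, j), hm⟩)).inc θ •
      (s.itR x A (P, ⟨(i, j), hm⟩)).xi A θ) =
    TH s x A (s.MR x A ⊔ m.a * b) P θ i (j + 1) - TH s x A (s.MR x A ⊔ m.a * b) P θ i j -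
      (TV s x A (s.MR x A ⊔ m.a * b) P θ (i + 1) j -
        TV s x A (s.MR x A ⊔ m.a * b) P θ i j) := by
  obtain ⟨sa, sb⟩ := steps s hQ (s.cv.labS P)
  have h' := h
  simp only [Setup.Nondeg, Prod.mk_add_mk, add_zero] at h'
  obtain ⟨n1, n2, n3, n4⟩ := h'
  obtain ⟨hα, ea⟩ := step_dir sa (sub_ne_zero.2 n1)
  obtain ⟨hβ, eb⟩ := step_dir sb (sub_ne_zero.2 n2)
  set it := s.itR x A (P, ⟨(i, j), hm⟩) with hit
  have hk : it.k = dirOf (s.D.F (s.cv.labS P) (i + 1, j) - s.D.F (s.cv.labS P) (i, j)) := by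
    simp only [hit, Setup.itR, Prod.mk_add_mk, add_zero]
  have hl : it.l = dirOf (s.D.F (s.cv.labS P) (i, j + 1) - s.D.F (s.cv.labS P) (i, j)) := by
    simp only [hit, Setup.itR, Prod.mk_add_mk, add_zero]
  rw [← hk] at hα ea
  rw [← hl] at hβ eb
  have ho : it.o = (s.D.F (s.cv.labS P) (i + 1, j) - s.D.F (s.cv.labS P) (i, j)) it.k *
      (s.D.F (s.cv.labS P) (i, j + 1) - s.D.F (s.cv.labS P) (i, j)) it.l := by
    rw [hk, hl]
    simp only [hit, Setup.itR, Prod.mk_add_mk, add_zero, h, hv, and_self, if_true]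
  generalize (s.D.F (s.cv.labS P) (i + 1, j) - s.D.F (s.cv.labS P) (i, j)) it.k = α at hα ea ho
  generalize (s.D.F (s.cv.labS P) (i, j + 1) - s.D.F (s.cv.labS P) (i, j)) it.l = β at hβ eb ho
  have ho' : it.o ≠ 0 := by
    rw [ho]; rcases hα with rfl | rfl <;> rcases hβ with rfl | rfl <;> decide
  have hkl : it.k ≠ it.l := (s.itR_valid x A _ ho').1
  rw [sub_eq_iff_eq_add'] at ea eb
  have ec : s.D.F (s.cv.labS P) (i + 1, j + 1) =
      s.D.F (s.cv.labS P) (i, j) + α • ee it.k + β • ee it.l := by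
    rw [sub_eq_iff_eq_add.1 n3, ea, eb]; abel
  have hσ : it.σ = cell (s.D.F (s.cv.labS P) (i, j)) + α • ee it.k + β • ee it.l := by
    have := ref_prod _ i j ea eb ec (u := 0) (v := 0) (by simp) (by simp)
    rwa [add_zero, add_zero, zero_smul, zero_smul, add_zero, add_zero] at this
  have hF : ∀ u v : ℤ, |u| ≤ 1 → |v| ≤ 1 → s.FF P (2 * i + 1 + u, 2 * j + 1 + v) =
      it.σ + u • α • ee it.k + v • β • ee it.l := fun u v hu hv => by
    rw [hσ]; exact ref_prod _ i j ea eb ec hu hv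
  have ck : ∀ u v : ℤ, (it.σ + u • α • ee it.k + v • β • ee it.l) it.k = it.σ it.k + u * α :=
    fun u v => by simp [ee, hkl]
  have cl : ∀ u v : ℤ, (it.σ + u • α • ee it.k + v • β • ee it.l) it.l = it.σ it.l + v * β :=
    fun u v => by simp [ee, hkl.symm]
  have ts : ∀ u v : ℤ, |u| ≤ 1 → |v| ≤ 1 →
      tt s x A (s.MR x A ⊔ m.a * b) P θ (2 * i + 1 + u, 2 * j + 1 + v) =
        if θ = it.σ + u • α • ee it.k + v • β • ee it.l then pr _ (it.xi A θ) else 0 := by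
    intro u v hu hv
    rw [tt, hF u v hu hv]
    by_cases e : θ = it.σ + u • α • ee it.k + v • β • ee it.l
    · have hst : it.Star θ := by
        refine ⟨fun n h1 h2 => by simp [e, ee, h1, h2], ?_, ?_⟩
        · rw [e, ck, add_sub_cancel_left]; rcases hα with rfl | rfl <;> simpa using hu
        · rw [e, cl, add_sub_cancel_left]; rcases hβ with rfl | rfl <;> simpa using hv
      obtain ⟨f, r, hf, f1, f2, hc, f3⟩ := s.star_face x A _ ho' hst hθ
      have f4 : f.1 / 2 = i := congrArg Prod.fst f2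
      have f5 : f.2 / 2 = j := congrArg Prod.snd f2
      obtain ⟨c1, c2⟩ := id hc
      have f6 := hF (r.1 - (2 * i + 1)) (r.2 - (2 * j + 1)) (by rw [abs_le]; omega)
        (by rw [abs_le]; omega)
      rw [add_sub_cancel, add_sub_cancel, Prod.mk.eta, show s.FF P r = θ from f3, e] at f6
      have g1 := congrFun f6 it.k
      have g2 := congrFun f6 it.l
      rw [ck, ck] at g1
      rw [cl, cl] at g2
      obtain rfl : r = (2 * i + 1 + u, 2 * j + 1 + v) :=
        Prod.ext (by rcases hα with rfl | rfl <;> omega) (by rcases hβ with rfl | rfl <;> omega)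
      have hxi := s.xi_eta m hx hp hs _ ho' hf f1 f2 hc
      rw [f3] at hxi
      rw [if_pos ⟨e.symm, f, hf, f1, hc⟩, if_pos e]
      exact (pr_eq.2 hxi).symm
    · rw [if_neg fun h0 => e h0.1.symm, if_neg e]
  have tT := ts 0 1 (by simp) (by simp)
  have tB := ts 0 (-1) (by simp) (by simp)
  have tR := ts 1 0 (by simp) (by simp)
  have tL := ts (-1) 0 (by simp) (by simp)
  have e1 : 2 * i + 1 + -1 = 2 * i := by ring
  have e2 : 2 * i + 1 + 1 = 2 * (i + 1) := by ring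
  have e3 : 2 * j + 1 + -1 = 2 * j := by ring
  have e4 : 2 * j + 1 + 1 = 2 * (j + 1) := by ring
  simp only [e1, e2, e3, e4, add_zero, zero_smul, one_smul, neg_smul, ← sub_eq_add_neg]
    at tT tB tR tL
  have se : ∀ (γ : ℤ) (n : Fin 4), ∑ t, (γ • ee n) t = γ := fun γ n => by
    simp [ee, Pi.single_apply]
  rw [map_zsmul, inc_smul θ it hkl hα hβ ho]
  simp only [TH, TV, hg, tT, tB, tR, tL, ea, eb, ec, Pi.add_apply, Finset.sum_add_distrib, se]
  congr 3 <;> ring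

omit hQ in
theorem hclR (hθ : θ ∈ KR s.D.N) :
    InI (s.MR x A ⊔ m.a * b) (∑ y, (s.itR x A y).inc θ • (s.itR x A y).xi A θ) := by
  rw [← pr_zero, map_sum, Fintype.sum_prod_type]
  refine Finset.sum_eq_zero fun P _ => ?_
  rw [← sum_T s x A (s.MR x A ⊔ m.a * b) P θ, ← Finset.sum_coe_sort (sqs s.D.M)]
  refine Finset.sum_congr rfl fun ⟨⟨i, j⟩, hm⟩ _ => ?_
  have hQ : InSq s.D.M (i, j) := by
    have := hm
    simp only [sqs, Finset.mem_product, Finset.mem_Ico] at this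
    exact ⟨this.1.1, this.1.2, this.2.1, this.2.2⟩
  by_cases h : s.Nondeg P (i, j) ∧ s.cv.PV P (ctr (i, j))
  · exact sq_nondeg s P θ m hx hp hs hQ hθ hm h.1 h.2
  have e : (s.itR x A (P, ⟨(i, j), hm⟩)).inc θ = 0 := by
    have e' : (s.itR x A (P, ⟨(i, j), hm⟩)).o = 0 := if_neg h
    simp only [Item.inc, e', neg_zero, ite_self]
  rw [e, zero_smul, map_zero]
  by_cases h1 : s.Nondeg P (i, j)
  · have h2 : ¬ s.cv.PV P (ctr (i, j)) := fun h2 => h ⟨h1, h2⟩
    have t := fun r => tt_out s x A (s.MR x A ⊔ m.a * b) P θ hQ h2 (r := r)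
    simp only [TH, TV]
    rw [t, t, t, t]
    · simp
    all_goals dsimp only; omega
  · exact (sq_deg s P θ m hx hp hs hQ h1).symm

end R2b
end Vale.Agent.P215Z.K
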